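import Vale.Agent.P196.H211.Glue964
import Vale.Agent.P196.H354.Sum
import Vale.Agent.P196.AM.LimitOv

/-!
# P196: `AI` for the first coordinate, from the equivariance of the vectors and the realisation
-/

open Filter Topology Equiv

namespace Vale.Agent.P196.H211

open Vale.Agent.P196 Vale.Agent.P196.AM Vale.Agent.P196.H964 Vale.Agent.P196.S0

theorem AI_fst_P0 {ι : Type} [Fintype ι] [DecidableEq ι] (LS : Set (Set Z2))
    {Ctx : Type} [Fintype Ctx] [DecidableEq Ctx] [Nonempty Ctx] (cx : ℕ → ℤ × ℤ → Ctx)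
    (hT : ∀ (f0 : ι) (d : Fin 2) (J : ℕ) (z : AM.Fld J ι), ∀ᶠ M in atTop,
      (∀ ω : Om M ι Ctx, Psi P0 (AM.tr f0 d (pull J M z)) (liftT f0 d ω) =
        Psi P0 (pull J M z) ω) ∧
      (∀ ω : Om M ι Ctx, Psi P0 (pull J M z) ω ≠ 0 →
        rz M (cx M) (liftT f0 d ω) ∘ dP (Pi.single f0 (eZ d)) = rz M (cx M) ω))
    (hC : ∀ E ∈ LS, ∃ R : ℕ, Face R E ∧ ∀ a : Perm ι, ∃ hat : ∀ M, Perm (Om M ι Ctx),
      ∀ (J : ℕ) (z : AM.Fld J ι), (∀ u, ¬ FarT J R u → ∀ f i, z u f i = 0) → ∀ᶠ M in atTop,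
      (∀ ω, Psi P0 (AM.pm (sE M E a) (pull J M z)) (hat M ω) = Psi P0 (pull J M z) ω) ∧
      (∀ ω, Psi P0 (pull J M z) ω ≠ 0 → rz M (cx M) (hat M ω) ∘ eP E a = rz M (cx M) ω)) :
    AI Prod.fst (gens ι LS) := by
  obtain ⟨q, hq, hlim⟩ := Ov_tendsto (Fintype.card Ctx)
  refine AI_fst_of LS cx P0 q (am6_964 hq) (fun J z z' => ?_) hT hC
  have h := hlim ι inferInstance J z z'
  refine (h.congr (fun M => ?_))
  exact (sum_Psi P0 (upF J M z) (upF J M z')).symm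

end Vale.Agent.P196.H211
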