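import Vale.Agent.P196.H211.Torus

/-!
# P196, block AM6 (helper211): the almost invariant superposition of fields
-/

open Finset Matrix

namespace Vale.Agent.P196.H211

variable {ι : Type*} [Fintype ι] [DecidableEq ι]

/-- mean square norm -/
noncomputable def nrm {J : ℕ} (q : Fin 2 → ℝ) (v : Fld J ι) : ℝ :=
  (∑ u, ∑ f, ∑ i, q i * v u f i ^ 2) / 4 ^ (J + 1)

/-- the unit vectors -/
def ee {J : ℕ} (d : Fin 2) : Tor J := if d = 0 then (1, 0) else (0, 1)

/-- translation of the floor `f0` by the unit vector `d` -/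
noncomputable def tr {J : ℕ} (f0 : ι) (d : Fin 2) (v : Fld J ι) : Fld J ι := fun u f i =>
  if f = f0 then v (u - ee d) f i - (if i = d then 1 else 0) else v u f i

/-- permutation of the floors above every class -/
def pm {J : ℕ} (s : Tor J → Equiv.Perm ι) (v : Fld J ι) : Fld J ι := fun u f i =>
  v u ((s u)⁻¹ f) i

/-- `s` only depends on the class modulo `2^(j+1)` away from the lines of level at least `j` -/
def Inv (R : ℕ) {J : ℕ} (s : Tor J → Equiv.Perm ι) : Prop :=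
  ∀ j ≤ J, ∀ u v, Same j u v → Far R j u → Far R j v → s u = s v

section tent

variable {J : ℕ}

/-- index set of the fields -/
abbrev Ix (J : ℕ) (ι : Type*) := Tor J × ι × Fin 2

/-- the class maps -/
def cl (ι : Type*) (J : ℕ) (j : ℕ) (x : Ix J ι) : ℕ × ℕ × ι × Fin 2 :=
  (x.1.1.val % 2 ^ (j + 1), x.1.2.val % 2 ^ (j + 1), x.2.1, x.2.2)

omit [Fintype ι] [DecidableEq ι] in
theorem cl_iff {j : ℕ} {x y : Ix J ι} : cl ι J j x = cl ι J j y ↔ Same j x.1 y.1 ∧ x.2 = y.2 := by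
  unfold cl Same
  rw [Prod.mk.injEq, Prod.mk.injEq, and_assoc]

/-- the tent function at scale `j` with threshold `2^(j-k)` -/
noncomputable def tent (k j : ℕ) (u : Tor J) : ℝ :=
  max 0 (min 1 ((((min (dd j u.1) (dd j u.2) : ℕ) : ℝ) - 2 ^ (j - k)) / 2 ^ (j - k)))

theorem tent_nonneg (k j : ℕ) (u : Tor J) : 0 ≤ tent k j u := le_max_left _ _

theorem tent_congr {k j : ℕ} {u v : Tor J} (h : Same j u v) : tent k j u = tent k j v := by
  have h1 := h.mod (i := j) (by omega)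
  unfold tent dd
  rw [h1.1, h1.2]

theorem tent_far {k j R : ℕ} (hR : R ≤ 2 ^ (j - k)) {u : Tor J} (h : tent k j u ≠ 0) :
    Far R j u := by
  have hp : (0 : ℝ) < 2 ^ (j - k) := by positivity
  have h1 : (2 : ℝ) ^ (j - k) < ((min (dd j u.1) (dd j u.2) : ℕ) : ℝ) := by
    by_contra hc
    push Not at hc
    apply h
    unfold tent
    apply max_eq_left
    refine (min_le_right _ _).trans ?_
    exact div_nonpos_of_nonpos_of_nonneg (by linarith) hp.le
  have h2 : 2 ^ (j - k) < min (dd j u.1) (dd j u.2) := by exact_mod_cast h1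
  have h3 := lt_min_iff.1 h2
  exact ⟨far_of_dd (lt_of_le_of_lt hR h3.1), far_of_dd (lt_of_le_of_lt hR h3.2)⟩

theorem tent_eq_one {k j : ℕ} {u : Tor J} (h1 : 2 * 2 ^ (j - k) ≤ dd j u.1)
    (h2 : 2 * 2 ^ (j - k) ≤ dd j u.2) : tent k j u = 1 := by
  have hp : (0 : ℝ) < 2 ^ (j - k) := by positivity
  have h3 : 2 * 2 ^ (j - k) ≤ min (dd j u.1) (dd j u.2) := le_min h1 h2
  have h4 : (2 : ℝ) * 2 ^ (j - k) ≤ ((min (dd j u.1) (dd j u.2) : ℕ) : ℝ) := by exact_mod_cast h3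
  unfold tent
  rw [min_eq_left, max_eq_right zero_le_one]
  rw [le_div_iff₀ hp]
  linarith

theorem abs_clamp (a b : ℝ) : |max 0 (min 1 a) - max 0 (min 1 b)| ≤ |a - b| := by
  have h0 := abs_max_sub_max_le_abs (min 1 a) (min 1 b) 0
  rw [max_comm _ (0 : ℝ), max_comm _ (0 : ℝ)] at h0
  refine h0.trans ?_
  · rcases le_total 1 a with ha | ha <;> rcases le_total 1 b with hb | hb
    · rw [min_eq_left ha, min_eq_left hb]; simp
    · rw [min_eq_left ha, min_eq_right hb, abs_of_nonneg (by linarith), abs_of_nonneg (by linarith)]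
      linarith
    · rw [min_eq_right ha, min_eq_left hb, abs_of_nonpos (by linarith), abs_of_nonpos (by linarith)]
      linarith
    · rw [min_eq_right ha, min_eq_right hb]

theorem tent_lip {k j : ℕ} (hj : j ≤ J + 1) (d : Fin 2) (u : Tor J) :
    |tent k j (u - ee d) - tent k j u| ≤ 1 / 2 ^ (j - k) := by
  have hp : (0 : ℝ) < 2 ^ (j - k) := by positivity
  unfold tent
  refine (abs_clamp _ _).trans ?_
  rw [← sub_div, abs_div, abs_of_pos hp]
  apply div_le_div_of_nonneg_right _ hp.le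
  set A : ℕ := min (dd j (u - ee d).1) (dd j (u - ee d).2)
  set B : ℕ := min (dd j u.1) (dd j u.2)
  have h : A ≤ B + 1 ∧ B ≤ A + 1 := by
    have h1 := dd_sub_one hj u.1
    have h2 := dd_sub_one hj u.2
    by_cases hd : d = 0
    · have e1 : (u - ee d).1 = u.1 - 1 := by simp [ee, hd]
      have e2 : (u - ee d).2 = u.2 := by simp [ee, hd]
      simp only [A, B, e1, e2]
      omega
    · have e1 : (u - ee d).1 = u.1 := by simp [ee, hd]
      have e2 : (u - ee d).2 = u.2 - 1 := by simp [ee, hd]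
      simp only [A, B, e1, e2]
      omega
  have h1 : (A : ℝ) ≤ B + 1 := by exact_mod_cast h.1
  have h2 : (B : ℝ) ≤ A + 1 := by exact_mod_cast h.2
  rw [abs_le]
  constructor <;> linarith

end tent

section inst

variable {J j0 : ℕ}

theorem card_Ix : (Fintype.card (Ix J ι) : ℝ) = ((8 * Fintype.card ι : ℕ) : ℝ) * 4 ^ J := by
  have h : Fintype.card (Ix J ι) = 2 ^ (J + 1) * 2 ^ (J + 1) * (Fintype.card ι * 2) := by
    simp [Fintype.card_prod, ZMod.card]
  rw [h]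
  push_cast
  have e : (4 : ℝ) ^ J = 2 ^ J * 2 ^ J := by rw [← mul_pow]; norm_num
  rw [e, pow_succ]
  ring

theorem nested (hJ : j0 ≤ J) : Nested (Ioc j0 J) J (8 * Fintype.card ι) (cl ι J) where
  le j hj := (mem_Ioc.1 hj).2
  card := card_Ix
  fib j hj x := by
    have hjJ : j ≤ J := (mem_Ioc.1 hj).2
    have h1 : univ.filter (fun y => cl ι J j x = cl ι J j y) =
        (univ.filter (fun a : ZMod (2 ^ (J + 1)) =>
          a.val % 2 ^ (j + 1) = x.1.1.val % 2 ^ (j + 1)) ×ˢ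
        univ.filter (fun a : ZMod (2 ^ (J + 1)) =>
          a.val % 2 ^ (j + 1) = x.1.2.val % 2 ^ (j + 1))) ×ˢ {x.2} := by
      ext y
      rw [mem_filter, cl_iff, mem_product, mem_product, mem_filter, mem_filter, mem_singleton]
      unfold Same
      constructor
      · rintro ⟨_, ⟨h1, h2⟩, h3⟩
        exact ⟨⟨⟨mem_univ _, h1.symm⟩, ⟨mem_univ _, h2.symm⟩⟩, h3.symm⟩
      · rintro ⟨⟨⟨_, h1⟩, ⟨_, h2⟩⟩, h3⟩
        exact ⟨mem_univ _, ⟨h1.symm, h2.symm⟩, h3.symm⟩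
    have h2 : ∀ r : ℕ, r < 2 ^ (j + 1) → (univ.filter (fun a : ZMod (2 ^ (J + 1)) =>
        a.val % 2 ^ (j + 1) = r)).card = 2 ^ (J - j) := by
      intro r hr
      rw [card_zmod_mod (by omega) (fun k => k = r)]
      have : (range (2 ^ (j + 1))).filter (fun k => k = r) = {r} := by
        ext k
        rw [mem_filter, mem_range, mem_singleton]
        constructor
        · exact fun h => h.2
        · rintro rfl; exact ⟨hr, rfl⟩
      rw [this, card_singleton, mul_one]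
      congr 1
      omega
    rw [h1, card_product, card_product, card_singleton, h2 _ (Nat.mod_lt _ (by positivity)),
      h2 _ (Nat.mod_lt _ (by positivity))]
    have e : (4 : ℝ) ^ J = 4 ^ (J - j) * 4 ^ j := by rw [← pow_add]; congr 1; omega
    have e2 : (4 : ℝ) ^ (J - j) = 2 ^ (J - j) * 2 ^ (J - j) := by rw [← mul_pow]; norm_num
    push_cast
    rw [e, e2]
    field_simp
  nest i hi j hj hij x y h := by
    rw [cl_iff] at h ⊢
    exact ⟨h.1.mod (i := i + 1) (by omega), h.2⟩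

/-- the weights -/
def wt (J : ℕ) (ι : Type*) (q : Fin 2 → ℝ) (x : Ix J ι) : ℝ := q x.2.2

/-- the weighted tents -/
noncomputable def hh (J : ℕ) (ι : Type*) (q : Fin 2 → ℝ) (k j : ℕ) (x : Ix J ι) : ℝ :=
  q x.2.2 * tent k j x.1

theorem tentS {q : Fin 2 → ℝ} (hq : ∀ i, 0 ≤ q i) (k : ℕ) :
    Tent (Ioc j0 J) (cl ι J) (hh J ι q k) where
  nonneg j _ x := mul_nonneg (hq _) (tent_nonneg _ _ _)
  cls j _ x y h := by
    rw [cl_iff] at h
    unfold hh
    rw [tent_congr h.1, h.2]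

theorem card_bad {q : Fin 2 → ℝ} {k j : ℕ} (hkj : k ≤ j) (hj : j ≤ J) :
    ((univ.filter (fun x => hh J ι q k j x ≠ wt J ι q x)).card : ℝ) ≤
      8 / 2 ^ k * (((8 * Fintype.card ι : ℕ) : ℝ) * 4 ^ J) := by
  set B : Finset (ZMod (2 ^ (J + 1))) := univ.filter (fun a =>
    min (a.val % 2 ^ j) (2 ^ j - a.val % 2 ^ j) < 2 * 2 ^ (j - k)) with hB
  have hBc : B.card ≤ 2 ^ (J + 1 - j) * (2 * (2 * 2 ^ (j - k))) := by
    rw [hB, card_zmod_mod (by omega) (fun r => min r (2 ^ j - r) < 2 * 2 ^ (j - k))]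
    exact Nat.mul_le_mul_left _ (card_near _ _)
  have h1 : univ.filter (fun x => hh J ι q k j x ≠ wt J ι q x) ⊆
      ((B ×ˢ univ) ×ˢ univ) ∪ ((univ ×ˢ B) ×ˢ univ) := by
    intro x hx
    rw [mem_filter] at hx
    by_contra hc
    rw [mem_union, not_or, mem_product, mem_product, mem_product, mem_product, hB, mem_filter,
      mem_filter] at hc
    apply hx.2
    unfold hh wt
    rw [tent_eq_one, mul_one]
    · unfold dd
      by_contra hlt
      exact hc.1 ⟨⟨⟨mem_univ _, not_le.1 hlt⟩, mem_univ _⟩, mem_univ _⟩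
    · unfold dd
      by_contra hlt
      exact hc.2 ⟨⟨mem_univ _, ⟨mem_univ _, not_le.1 hlt⟩⟩, mem_univ _⟩
  have h2 : (univ.filter (fun x => hh J ι q k j x ≠ wt J ι q x)).card ≤
      2 * (B.card * 2 ^ (J + 1) * (Fintype.card ι * 2)) := by
    refine (card_le_card h1).trans ((card_union_le _ _).trans ?_)
    rw [card_product, card_product, card_product, card_product, card_univ, card_univ,
      ZMod.card, Fintype.card_prod, Fintype.card_fin]
    apply le_of_eq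
    ring
  have h3 : 2 * (B.card * 2 ^ (J + 1) * (Fintype.card ι * 2)) ≤
      2 * ((2 ^ (J + 1 - j) * (2 * (2 * 2 ^ (j - k)))) * 2 ^ (J + 1) * (Fintype.card ι * 2)) := by
    gcongr
  have h4 : ((univ.filter (fun x => hh J ι q k j x ≠ wt J ι q x)).card : ℝ) ≤
      ((2 * ((2 ^ (J + 1 - j) * (2 * (2 * 2 ^ (j - k)))) * 2 ^ (J + 1) *
        (Fintype.card ι * 2)) : ℕ) : ℝ) := by
    exact_mod_cast h2.trans h3
  refine h4.trans (le_of_eq ?_)
  push_cast
  have e1 : (2 : ℝ) ^ (J + 1) = 2 ^ (J + 1 - j) * 2 ^ j := by rw [← pow_add]; congr 1; omega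
  have e2 : (2 : ℝ) ^ j = 2 ^ (j - k) * 2 ^ k := by rw [← pow_add]; congr 1; omega
  have e3 : (4 : ℝ) ^ J * 4 = 2 ^ (J + 1) * 2 ^ (J + 1) := by
    rw [← pow_succ, ← mul_pow]; norm_num
  have e4 : (2 : ℝ) ^ (J + 1 - j) * 2 ^ (j - k) = 2 ^ (J + 1) / 2 ^ k := by
    rw [e1, e2]; field_simp
  calc (2 : ℝ) * (2 ^ (J + 1 - j) * (2 * (2 * 2 ^ (j - k))) * 2 ^ (J + 1) * (Fintype.card ι * 2))
      = 16 * (2 ^ (J + 1 - j) * 2 ^ (j - k)) * 2 ^ (J + 1) * Fintype.card ι := by ring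
    _ = 16 * (2 ^ (J + 1) / 2 ^ k) * 2 ^ (J + 1) * Fintype.card ι := by rw [e4]
    _ = 16 / 2 ^ k * (2 ^ (J + 1) * 2 ^ (J + 1)) * Fintype.card ι := by ring
    _ = _ := by rw [← e3]; ring

/-- the permutation of a translation -/
def sigT (f0 : ι) (d : Fin 2) : Equiv.Perm (Ix J ι) where
  toFun x := if x.2.1 = f0 then (x.1 + ee d, x.2) else x
  invFun x := if x.2.1 = f0 then (x.1 - ee d, x.2) else x
  left_inv x := by
    by_cases h : x.2.1 = f0
    · simp [h]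
    · simp [h]
  right_inv x := by
    by_cases h : x.2.1 = f0
    · simp [h]
    · simp [h]

/-- the permutation of a colouring -/
def sigC (s : Tor J → Equiv.Perm ι) : Equiv.Perm (Ix J ι) where
  toFun x := (x.1, s x.1 x.2.1, x.2.2)
  invFun x := (x.1, (s x.1)⁻¹ x.2.1, x.2.2)
  left_inv x := by simp
  right_inv x := by simp

omit [Fintype ι] in
theorem sigT_inv (f0 : ι) (d : Fin 2) (x : Ix J ι) :
    (sigT f0 d)⁻¹ x = if x.2.1 = f0 then (x.1 - ee d, x.2) else x := rfl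

omit [Fintype ι] in
theorem sigT_apply (f0 : ι) (d : Fin 2) (x : Ix J ι) :
    (sigT f0 d) x = if x.2.1 = f0 then (x.1 + ee d, x.2) else x := rfl

omit [Fintype ι] [DecidableEq ι] in
theorem sigC_inv (s : Tor J → Equiv.Perm ι) (x : Ix J ι) :
    (sigC s)⁻¹ x = (x.1, (s x.1)⁻¹ x.2.1, x.2.2) := rfl

omit [Fintype ι] [DecidableEq ι] in
theorem sigC_apply (s : Tor J → Equiv.Perm ι) (x : Ix J ι) :
    (sigC s) x = (x.1, s x.1 x.2.1, x.2.2) := rfl

theorem same_add (d : Fin 2) {j : ℕ} (hj : j ≤ J) (u v : Tor J) :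
    Same j (u + ee d) (v + ee d) ↔ Same j u v := by
  unfold Same
  by_cases hd : d = 0
  · have e1 : ∀ w : Tor J, (w + ee d).1 = w.1 + 1 := by intro w; simp [ee, hd]
    have e2 : ∀ w : Tor J, (w + ee d).2 = w.2 := by intro w; simp [ee, hd]
    rw [e1, e1, e2, e2, mod_add_one_iff (by omega)]
  · have e1 : ∀ w : Tor J, (w + ee d).1 = w.1 := by intro w; simp [ee, hd]
    have e2 : ∀ w : Tor J, (w + ee d).2 = w.2 + 1 := by intro w; simp [ee, hd]
    rw [e1, e1, e2, e2, mod_add_one_iff (by omega)]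

theorem same_sub (d : Fin 2) {j : ℕ} (hj : j ≤ J) (u v : Tor J) :
    Same j (u - ee d) (v - ee d) ↔ Same j u v := by
  have h := same_add d hj (u - ee d) (v - ee d)
  rw [sub_add_cancel, sub_add_cancel] at h
  exact h.symm

theorem comp_T {q : Fin 2 → ℝ} {W : ℝ} (hq : ∀ i, 0 ≤ q i) (hW : ∀ i, q i ≤ W) {k : ℕ}
    (hk : k ≤ j0) (f0 : ι) (d : Fin 2) :
    Comp (Ioc j0 J) (cl ι J) (hh J ι q k) (W * 2 ^ k) (sigT f0 d) where
  iff j hj x y _ := by
    have hjJ := (mem_Ioc.1 hj).2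
    rw [sigT_apply, sigT_apply]
    by_cases h1 : x.2.1 = f0 <;> by_cases h2 : y.2.1 = f0
    · rw [if_pos h1, if_pos h2, cl_iff, cl_iff, same_add d hjJ]
    · rw [if_pos h1, if_neg h2, cl_iff, cl_iff]
      constructor
      · rintro ⟨_, h⟩; exact absurd (h ▸ h1) h2
      · rintro ⟨_, h⟩; exact absurd (h ▸ h1) h2
    · rw [if_neg h1, if_pos h2, cl_iff, cl_iff]
      constructor
      · rintro ⟨_, h⟩; exact absurd (h ▸ h2) h1
      · rintro ⟨_, h⟩; exact absurd (h ▸ h2) h1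
    · rw [if_neg h1, if_neg h2]
  lip j hj x := by
    have hjJ := (mem_Ioc.1 hj).2
    have hj0 := (mem_Ioc.1 hj).1
    have hW0 : 0 ≤ W := (hq 0).trans (hW 0)
    have e1 : W * 2 ^ k / 2 ^ j = W * (1 / 2 ^ (j - k)) := by
      have : (2 : ℝ) ^ j = 2 ^ (j - k) * 2 ^ k := by rw [← pow_add]; congr 1; omega
      rw [this]; field_simp
    rw [sigT_inv, e1]
    by_cases h1 : x.2.1 = f0
    · rw [if_pos h1]
      unfold hh
      rw [← mul_sub, abs_mul, abs_of_nonneg (hq _)]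
      exact mul_le_mul (hW _) (tent_lip (by omega) d _) (abs_nonneg _) hW0
    · rw [if_neg h1, sub_self, abs_zero]
      positivity
  cls j hj x y h := by
    have hjJ := (mem_Ioc.1 hj).2
    rw [cl_iff] at h
    rw [sigT_inv, sigT_inv]
    have h2 : x.2.1 = y.2.1 := congrArg Prod.fst h.2
    by_cases h1 : x.2.1 = f0
    · rw [if_pos h1, if_pos (h2 ▸ h1)]
      unfold hh
      rw [tent_congr ((same_sub d hjJ _ _).2 h.1), h.2]
    · rw [if_neg h1, if_neg (h2 ▸ h1)]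
      unfold hh
      rw [tent_congr h.1, h.2]

theorem comp_C {q : Fin 2 → ℝ} {k R : ℕ} (hR : ∀ j ∈ Ioc j0 J, R ≤ 2 ^ (j - k))
    {s : Tor J → Equiv.Perm ι} (hs : Inv R s) :
    Comp (Ioc j0 J) (cl ι J) (hh J ι q k) 0 (sigC s) where
  iff j hj x y h0 := by
    have hjJ := (mem_Ioc.1 hj).2
    have hf : Far R j x.1 := by
      apply tent_far (hR j hj)
      intro h
      apply h0
      unfold hh
      rw [h, mul_zero]
    rw [sigC_apply, sigC_apply, cl_iff, cl_iff]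
    constructor
    · rintro ⟨h1, h2⟩
      refine ⟨h1, ?_⟩
      have h3 := hs j hjJ x.1 y.1 h1 hf (h1.far.1 hf)
      rw [h3, h2]
    · rintro ⟨h1, h2⟩
      refine ⟨h1, ?_⟩
      have h3 := hs j hjJ x.1 y.1 h1 hf (h1.far.1 hf)
      simp only [Prod.mk.injEq] at h2
      rw [h3] at h2
      exact Prod.ext ((s y.1).injective h2.1) h2.2
  lip j hj x := by
    rw [sigC_inv]
    unfold hh
    simp
  cls j hj x y h := by
    rw [cl_iff] at h
    rw [sigC_inv, sigC_inv]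
    unfold hh
    simp only
    rw [tent_congr h.1, h.2]

end inst

section final

variable {J j0 : ℕ}

/-- the field of a vector -/
noncomputable def toF (w : Ix J ι → ℝ) : Fld J ι := fun u f i => 2 ^ (J + 1) * w (u, f, i)

theorem nrm_toF (q : Fin 2 → ℝ) (w w' : Ix J ι → ℝ) :
    nrm q (toF w - toF w') = ∑ x : Ix J ι, q x.2.2 * (w x - w' x) ^ 2 := by
  unfold nrm
  have e4 : (4 : ℝ) ^ (J + 1) = 2 ^ (J + 1) * 2 ^ (J + 1) := by rw [← mul_pow]; norm_num
  have h0 : (0 : ℝ) < 2 ^ (J + 1) := by positivity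
  have hne : (4 : ℝ) ^ (J + 1) ≠ 0 := by positivity
  have hs : ∑ x : Ix J ι, q x.2.2 * (w x - w' x) ^ 2 =
      ∑ u : Tor J, ∑ f : ι, ∑ i : Fin 2, q i * (w (u, f, i) - w' (u, f, i)) ^ 2 := by
    refine (Fintype.sum_prod_type _).trans (sum_congr rfl (fun u _ => ?_))
    exact Fintype.sum_prod_type _
  rw [div_eq_iff hne, hs, sum_mul]
  refine sum_congr rfl (fun u _ => ?_)
  rw [sum_mul]
  refine sum_congr rfl (fun f _ => ?_)
  rw [sum_mul]
  refine sum_congr rfl (fun i _ => ?_)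
  show q i * (2 ^ (J + 1) * w (u, f, i) - 2 ^ (J + 1) * w' (u, f, i)) ^ 2 = _
  rw [e4]
  ring

omit [Fintype ι] in
theorem tr_toF (f0 : ι) (d : Fin 2) (w : Ix J ι → ℝ) :
    tr f0 d (toF w) = toF (fun x => w ((sigT f0 d)⁻¹ x) -
      if x.2.1 = f0 ∧ x.2.2 = d then 1 / 2 ^ (J + 1) else 0) := by
  funext u f i
  have h0 : (0 : ℝ) < 2 ^ (J + 1) := by positivity
  unfold tr toF
  simp only [sigT_inv]
  by_cases hf : f = f0
  · by_cases hi : i = d
    · simp only [hf, hi, if_true, true_and]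
      field_simp
    · simp only [hf, hi, if_true, if_false, and_false, sub_zero]
  · simp only [hf, if_false, false_and, sub_zero]

omit [Fintype ι] [DecidableEq ι] in
theorem pm_toF (s : Tor J → Equiv.Perm ι) (w : Ix J ι → ℝ) :
    pm s (toF w) = toF (fun x => w ((sigC s)⁻¹ x)) := rfl

/-- the unweighted field matrix -/
noncomputable def L0 (ι : Type*) [Fintype ι] [DecidableEq ι] (j0 J k : ℕ) (τ : ℝ) :
    Matrix (Ix J ι) (Ioc j0 J × Ix J ι) ℝ :=
  Lm (Ioc j0 J) J (cl ι J) (fun j x => tent k j x.1) τ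

theorem Lm_eq {q : Fin 2 → ℝ} (hq : ∀ i, 0 ≤ q i) (k : ℕ) (τ : ℝ)
    (a : Ioc j0 J × Ix J ι → ℝ) (x : Ix J ι) :
    (Lm (Ioc j0 J) J (cl ι J) (hh J ι q k) τ).mulVec a x =
      Real.sqrt (q x.2.2) * (L0 ι j0 J k τ).mulVec a x := by
  rw [Matrix.mulVec, Matrix.mulVec, dotProduct, dotProduct, mul_sum]
  refine sum_congr rfl (fun p _ => ?_)
  rw [← mul_assoc]
  congr 1
  unfold L0 Lm
  by_cases h : cl ι J p.1 x = cl ι J p.1 p.2
  · rw [if_pos h]
    rw [cl_iff] at h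
    unfold hh
    rw [h.2, show τ * (q p.2.2.2 * tent k p.1 p.2.1) = q p.2.2.2 * (τ * tent k p.1 p.2.1) by ring,
      Real.sqrt_mul (hq _)]
    ring
  · rw [if_neg h]; ring

theorem L0_zero {k R : ℕ} (hR : ∀ j ∈ Ioc j0 J, R ≤ 2 ^ (j - k)) (τ : ℝ)
    (a : Ioc j0 J × Ix J ι → ℝ) {u : Tor J} (hu : ¬ Far R J u) (f : ι) (i : Fin 2) :
    (L0 ι j0 J k τ).mulVec a (u, f, i) = 0 := by
  rw [Matrix.mulVec, dotProduct]
  refine sum_eq_zero (fun p _ => ?_)
  unfold L0 Lm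
  by_cases h : cl ι J p.1 (u, f, i) = cl ι J p.1 p.2
  · have hj := p.1.2
    rw [cl_iff] at h
    have h0 : tent k p.1 p.2.1 = 0 := by
      rw [← tent_congr h.1]
      by_contra hne
      exact hu ((tent_far (hR _ hj) hne).mono (mem_Ioc.1 hj).2)
    simp only [h0, mul_zero, Real.sqrt_zero, zero_mul]
  · rw [if_neg h]; ring

/-- the displacement vector -/
noncomputable def bT (J : ℕ) (q : Fin 2 → ℝ) (f0 : ι) (d : Fin 2) (x : Ix J ι) : ℝ :=
  Real.sqrt (q x.2.2) * if x.2.1 = f0 ∧ x.2.2 = d then 1 / 2 ^ (J + 1) else 0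

theorem dot_eq {q : Fin 2 → ℝ} (hq : ∀ i, 0 ≤ q i) {X B Y : Ix J ι → ℝ} {x b y : Ix J ι → ℝ}
    (hX : ∀ t, X t = Real.sqrt (q t.2.2) * x t) (hB : ∀ t, B t = Real.sqrt (q t.2.2) * b t)
    (hY : ∀ t, Y t = Real.sqrt (q t.2.2) * y t) :
    (X - B - Y) ⬝ᵥ (X - B - Y) = nrm q (toF (fun t => x t - b t) - toF y) := by
  rw [nrm_toF, dotProduct]
  refine sum_congr rfl (fun t _ => ?_)
  have h1 := Real.mul_self_sqrt (hq t.2.2)
  rw [Pi.sub_apply, Pi.sub_apply, hX, hB, hY]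
  calc _ = (Real.sqrt (q t.2.2) * Real.sqrt (q t.2.2)) * (x t - b t - y t) ^ 2 := by ring
    _ = _ := by rw [h1]

theorem bT_beta {q : Fin 2 → ℝ} {W : ℝ} (hq : ∀ i, 0 ≤ q i) (hW : ∀ i, q i ≤ W) {k : ℕ}
    (hk : k ≤ j0) (hJ : j0 < J) {τ : ℝ} (hτ : 0 < τ) (f0 : ι) (d : Fin 2) :
    bT J q f0 d ⬝ᵥ (1 + Lm (Ioc j0 J) J (cl ι J) (hh J ι q k) τ *
      (Lm (Ioc j0 J) J (cl ι J) (hh J ι q k) τ)ᵀ)⁻¹.mulVec (bT J q f0 d) ≤
      ((8 * Fintype.card ι : ℕ) : ℝ) * (1 / 4) *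
        (W * (8 / 2 ^ k) + 1 / ((Ioc j0 J).card * τ)) := by
  refine beta_bound (nested hJ.le) (tentS hq k) hτ (card_pos.2 ⟨J, mem_Ioc.2 ⟨hJ, le_refl _⟩⟩)
    (w := wt J ι q) (by norm_num) (by positivity) ?_ ?_ (fun x => hq _) (fun x => hW _) ?_
  · intro j _ x y h _
    rw [cl_iff] at h
    unfold bT
    rw [h.2]
  · intro x
    unfold bT wt
    have h1 := Real.mul_self_sqrt (hq x.2.2)
    have e4 : (4 : ℝ) ^ J * 4 = 2 ^ (J + 1) * 2 ^ (J + 1) := by
      rw [← pow_succ, ← mul_pow]; norm_num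
    split_ifs
    · apply le_of_eq
      calc (Real.sqrt (q x.2.2) * (1 / 2 ^ (J + 1))) ^ 2 =
          (Real.sqrt (q x.2.2) * Real.sqrt (q x.2.2)) * (1 / (2 ^ (J + 1) * 2 ^ (J + 1))) := by
            field_simp
        _ = _ := by rw [h1, ← e4]; field_simp
    · have := hq x.2.2
      rw [mul_zero, zero_pow two_ne_zero]
      positivity
  · intro j hj
    exact card_bad (hk.trans (mem_Ioc.1 hj).1.le) (mem_Ioc.1 hj).2

/-- the superposition for given parameters -/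
theorem am6_param {q : Fin 2 → ℝ} {W : ℝ} (hq : ∀ i, 0 ≤ q i) (hW : ∀ i, q i ≤ W) {k R : ℕ}
    (hk : k ≤ j0) (hJ : j0 < J) (hR : ∀ j ∈ Ioc j0 J, R ≤ 2 ^ (j - k)) {τ ε δ : ℝ} (hτ : 0 < τ)
    (hε : 0 < ε)
    (hT : 3 * ((8 * Fintype.card ι : ℕ) : ℝ) * (W * 2 ^ k) ^ 2 * τ ^ 2 * (Ioc j0 J).card +
      (((8 * Fintype.card ι : ℕ) : ℝ) * (1 / 4) *
        (W * (8 / 2 ^ k) + 1 / ((Ioc j0 J).card * τ))) / 2 + δ ≤ ε) (hδ : 0 < δ) (hδε : δ ≤ ε) :
    ∃ (n : ℕ) (p : Fin n → ℝ) (z : Fin n → Fld J ι),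
      (∀ a, 0 ≤ p a) ∧ (∀ a u, ¬ Far R J u → ∀ f i, z a u f i = 0) ∧
      0 < ∑ a, ∑ a', p a * p a' * Real.exp (-(1/2) * nrm q (z a - z a')) ∧
      (∀ f0 d, (1 - ε) * ∑ a, ∑ a', p a * p a' * Real.exp (-(1/2) * nrm q (z a - z a')) ≤
        ∑ a, ∑ a', p a * p a' * Real.exp (-(1/2) * nrm q (tr f0 d (z a) - z a'))) ∧
      (∀ s : Tor J → Equiv.Perm ι, Inv R s →
        (1 - ε) * ∑ a, ∑ a', p a * p a' * Real.exp (-(1/2) * nrm q (z a - z a')) ≤
        ∑ a, ∑ a', p a * p a' * Real.exp (-(1/2) * nrm q (pm s (z a) - z a'))) := by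
  classical
  set L := Lm (Ioc j0 J) J (cl ι J) (hh J ι q k) τ with hL
  have hN := nested (ι := ι) hJ.le
  have hTt := tentS (j0 := j0) (J := J) (ι := ι) hq k
  obtain ⟨A, p, hp, hpos, hmain⟩ := H34.superposition
    (G₀ := (ι × Fin 2) ⊕ {s : Tor J → Equiv.Perm ι // Inv R s}) L
    (Sum.elim (fun g => Pm (sigT g.1 g.2)) (fun s => Pm (sigC s.1)))
    (by rintro (g | s) <;> exact Pm_orth _)
    (Sum.elim (fun g => bT J q g.1 g.2) (fun _ => 0)) hδ
  have hLeq : ∀ (a : Ioc j0 J × Ix J ι → ℝ) (x : Ix J ι), L.mulVec a x =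
      Real.sqrt (q x.2.2) * (L0 ι j0 J k τ).mulVec a x := fun a x => Lm_eq hq k τ a x
  have e0 : ∀ a a' : Ioc j0 J × Ix J ι → ℝ, (L.mulVec a - L.mulVec a') ⬝ᵥ
      (L.mulVec a - L.mulVec a') =
      nrm q (toF ((L0 ι j0 J k τ).mulVec a) - toF ((L0 ι j0 J k τ).mulVec a')) := by
    intro a a'
    have := dot_eq hq (hLeq a) (B := 0) (b := 0) (fun t => by simp) (hLeq a')
    rw [sub_zero] at this
    rw [this]
    congr 2
    congr 1
    funext t
    simp
  have eT : ∀ (f0 : ι) (d : Fin 2) (a a' : Ioc j0 J × Ix J ι → ℝ),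
      ((Pm (sigT f0 d)).mulVec (L.mulVec a) - bT J q f0 d - L.mulVec a') ⬝ᵥ
      ((Pm (sigT f0 d)).mulVec (L.mulVec a) - bT J q f0 d - L.mulVec a') =
      nrm q (tr f0 d (toF ((L0 ι j0 J k τ).mulVec a)) - toF ((L0 ι j0 J k τ).mulVec a')) := by
    intro f0 d a a'
    rw [tr_toF]
    refine dot_eq hq (x := fun t => (L0 ι j0 J k τ).mulVec a ((sigT f0 d)⁻¹ t)) (fun t => ?_)
      (fun t => rfl) (hLeq a')
    rw [Pm_mulVec, hLeq]
    congr 2
    rw [sigT_inv]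
    split_ifs <;> rfl
  have eC : ∀ (s : Tor J → Equiv.Perm ι) (a a' : Ioc j0 J × Ix J ι → ℝ),
      ((Pm (sigC s)).mulVec (L.mulVec a) - 0 - L.mulVec a') ⬝ᵥ
      ((Pm (sigC s)).mulVec (L.mulVec a) - 0 - L.mulVec a') =
      nrm q (pm s (toF ((L0 ι j0 J k τ).mulVec a)) - toF ((L0 ι j0 J k τ).mulVec a')) := by
    intro s a a'
    rw [pm_toF]
    have := dot_eq hq (X := (Pm (sigC s)).mulVec (L.mulVec a)) (B := 0)
      (x := fun t => (L0 ι j0 J k τ).mulVec a ((sigC s)⁻¹ t)) (b := 0) (fun t => by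
        rw [Pm_mulVec, hLeq]
        rfl) (fun t => by simp) (hLeq a')
    rw [this]
    congr 2
    congr 1
    funext t
    simp
  simp only [e0] at hpos hmain
  set eA := A.equivFin with heA
  have hsum : ∀ F : (Ioc j0 J × Ix J ι → ℝ) → (Ioc j0 J × Ix J ι → ℝ) → ℝ,
      ∑ a ∈ A, ∑ a' ∈ A, F a a' =
        ∑ a : Fin A.card, ∑ a' : Fin A.card, F (eA.symm a) (eA.symm a') := by
    intro F
    have h1 : ∀ G : (Ioc j0 J × Ix J ι → ℝ) → ℝ,
        ∑ a ∈ A, G a = ∑ a : Fin A.card, G (eA.symm a) := by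
      intro G
      rw [← sum_coe_sort A G]
      exact (Equiv.sum_comp eA.symm (fun a : A => G a)).symm
    rw [h1]
    refine sum_congr rfl (fun a _ => ?_)
    exact h1 _
  refine ⟨A.card, fun a => p (eA.symm a), fun a => toF ((L0 ι j0 J k τ).mulVec (eA.symm a)),
    fun a => hp _, ?_, ?_, ?_, ?_⟩
  · intro a u hu f i
    show 2 ^ (J + 1) * (L0 ι j0 J k τ).mulVec (eA.symm a : Ioc j0 J × Ix J ι → ℝ) (u, f, i) = 0
    rw [L0_zero hR τ _ hu, mul_zero]
  · rw [hsum] at hpos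
    exact hpos
  · intro f0 d
    have h := hmain (Sum.inl (f0, d))
    simp only [Sum.elim_inl, eT] at h
    rw [hsum, hsum] at h
    refine le_trans ?_ h
    refine mul_le_mul_of_nonneg_right ?_ ?_
    · have h1 := hs_perm hN hTt hτ.le (by
        have : 0 ≤ W := (hq 0).trans (hW 0)
        positivity : 0 ≤ W * 2 ^ k) (comp_T hq hW hk f0 d)
      have h2 := bT_beta hq hW hk hJ hτ f0 d
      linarith
    · rw [hsum] at hpos
      exact hpos.le
  · intro s hs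
    have h := hmain (Sum.inr ⟨s, hs⟩)
    simp only [Sum.elim_inr, eC] at h
    rw [hsum, hsum] at h
    refine le_trans ?_ h
    refine mul_le_mul_of_nonneg_right ?_ ?_
    · have h1 := hs_perm hN hTt hτ.le le_rfl (comp_C (q := q) hR hs)
      rw [zero_dotProduct]
      have h2 : 3 * ((8 * Fintype.card ι : ℕ) : ℝ) * 0 ^ 2 * τ ^ 2 * (Ioc j0 J).card = 0 := by ring
      rw [h2] at h1
      linarith
    · rw [hsum] at hpos
      exact hpos.le

/-- **[AM6]** almost invariant superposition of fields on the torus of classes -/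
theorem am6 (q : Fin 2 → ℝ) (hq : ∀ i, 0 ≤ q i) (R : ℕ) {ε : ℝ} (hε : 0 < ε) (J1 : ℕ) :
    ∃ J, J1 ≤ J ∧ ∃ (n : ℕ) (p : Fin n → ℝ) (z : Fin n → Fld J ι),
      (∀ a, 0 ≤ p a) ∧ (∀ a u, ¬ Far R J u → ∀ f i, z a u f i = 0) ∧
      0 < ∑ a, ∑ a', p a * p a' * Real.exp (-(1/2) * nrm q (z a - z a')) ∧
      (∀ f0 d, (1 - ε) * ∑ a, ∑ a', p a * p a' * Real.exp (-(1/2) * nrm q (z a - z a')) ≤
        ∑ a, ∑ a', p a * p a' * Real.exp (-(1/2) * nrm q (tr f0 d (z a) - z a'))) ∧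
      (∀ s : Tor J → Equiv.Perm ι, Inv R s →
        (1 - ε) * ∑ a, ∑ a', p a * p a' * Real.exp (-(1/2) * nrm q (z a - z a')) ≤
        ∑ a, ∑ a', p a * p a' * Real.exp (-(1/2) * nrm q (pm s (z a) - z a'))) := by
  set W : ℝ := q 0 + q 1 with hWdef
  have hW : ∀ i, q i ≤ W := by
    intro i
    have h0 := hq 0
    have h1 := hq 1
    fin_cases i
    · show q 0 ≤ W
      linarith
    · show q 1 ≤ W
      linarith
  have hW0 : 0 ≤ W := (hq 0).trans (hW 0)
  set c : ℝ := ((8 * Fintype.card ι : ℕ) : ℝ) with hc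
  have hc0 : 0 ≤ c := Nat.cast_nonneg _
  obtain ⟨k, hk⟩ := pow_unbounded_of_one_lt (6 * c * W / ε) (one_lt_two : (1 : ℝ) < 2)
  obtain ⟨M0, hM0⟩ := exists_nat_gt (max (6 * c / ε) (9 * c * (W * 2 ^ k) ^ 2 / ε))
  set M : ℕ := M0 + 1 with hM
  have hMpos : (0 : ℝ) < M := by rw [hM]; positivity
  have hM1 : (1 : ℝ) ≤ M := by rw [hM]; push_cast; linarith [(Nat.cast_nonneg M0 : (0 : ℝ) ≤ M0)]
  have hMa : 6 * c / ε < M := by
    have := (le_max_left _ _).trans_lt hM0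
    rw [hM]; push_cast; linarith
  have hMb : 9 * c * (W * 2 ^ k) ^ 2 / ε < M := by
    have := (le_max_right _ _).trans_lt hM0
    rw [hM]; push_cast; linarith
  set j0 : ℕ := k + R + 1 + J1 with hj0
  refine ⟨j0 + M ^ 4, by omega, ?_⟩
  have hMp : 0 < M ^ 4 := by positivity
  have hcard : (((Ioc j0 (j0 + M ^ 4)).card : ℕ) : ℝ) = (M : ℝ) ^ 4 := by
    rw [Nat.card_Ioc]
    have : j0 + M ^ 4 - j0 = M ^ 4 := by omega
    rw [this]
    push_cast
    rfl
  refine am6_param (j0 := j0) hq hW (k := k) (R := R) (τ := 1 / (M : ℝ) ^ 3) (δ := ε / 3)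
    (by omega) (by omega) ?_ (by positivity) hε ?_ (by positivity) (by linarith)
  · intro j hj
    have h1 := (mem_Ioc.1 hj).1
    have h2 : R ≤ j - k := by omega
    exact (Nat.lt_two_pow_self (n := R)).le.trans (Nat.pow_le_pow_right two_pos h2)
  · rw [hcard, ← hc]
    have h2k : (0 : ℝ) < 2 ^ k := by positivity
    have e1 : 3 * c * (W * 2 ^ k) ^ 2 * (1 / (M : ℝ) ^ 3) ^ 2 * (M : ℝ) ^ 4 =
        3 * c * (W * 2 ^ k) ^ 2 / (M : ℝ) ^ 2 := by field_simp
    have e2 : (M : ℝ) ^ 4 * (1 / (M : ℝ) ^ 3) = M := by field_simp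
    rw [e1, e2]
    have h1 : 3 * c * (W * 2 ^ k) ^ 2 / (M : ℝ) ^ 2 ≤ ε / 3 := by
      rw [div_le_iff₀ (by positivity)]
      rw [div_lt_iff₀ hε] at hMb
      have h7 : (M : ℝ) * ε ≤ (M : ℝ) ^ 2 * ε := by
        apply mul_le_mul_of_nonneg_right _ hε.le
        nlinarith
      linarith
    have h2 : c * W / 2 ^ k ≤ ε / 6 := by
      rw [div_le_iff₀ h2k]
      rw [div_lt_iff₀ hε] at hk
      linarith
    have h3 : c / M ≤ ε / 6 := by
      rw [div_le_iff₀ hMpos]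
      rw [div_lt_iff₀ hε] at hMa
      linarith
    have h4 : c * (1 / 4) * (W * (8 / 2 ^ k) + 1 / (M : ℝ)) / 2 = c * W / 2 ^ k + c / M / 8 := by
      field_simp
      ring
    rw [h4]
    have h5 : 0 ≤ c / M := by positivity
    linarith

end final

end Vale.Agent.P196.H211
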