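import Vale.Agent.P196.H211.AM6
import Vale.Agent.P196.H964.AM7b

/-!
# P196: `H211.am6` in the form used by `H964/AM7b.lean`
-/

namespace Vale.Agent.P196.H211

open Vale.Agent.P196

theorem am6_964 {ι : Type*} [Fintype ι] [DecidableEq ι] {q : Fin 2 → ℝ} (hq : ∀ i, 0 ≤ q i) :
    H964.AM6 ι q := by
  intro R ε hε
  obtain ⟨J, _, n, p, z, _, h1, h2, h3, h4⟩ := am6 (ι := ι) q hq R hε 0
  refine ⟨J, Fin n, inferInstance, p, z, fun a u hu => h1 a u hu, h2, h3, fun s hs => ?_⟩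
  refine h4 s (fun j hj u v huv hu hv => ?_)
  exact hs j hj u v huv.1 huv.2 hu.1.1 hu.1.2 hu.2.1 hu.2.2

end Vale.Agent.P196.H211
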