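import Vale.Agent.P196.H34.Super

/-!
# P196, block AM5 (helper211): the covariance built from nested classes

`I` is the finite set of classes modulo `2^J` (times floors, times components), `cl j` the class
map modulo `2^j`, `h j` the tent functions.  The Gaussian field has covariance
`Q x y = τ ∑_j h_j(x) [x ~_j y] 4^(j-J)`.
-/

open Matrix Finset

namespace Vale.Agent.P196.H211

variable {I κ : Type*} [Fintype I] [DecidableEq I] [DecidableEq κ]

/-- nested class maps with fibres of size `4^(J-j)` -/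
structure Nested (S : Finset ℕ) (J n : ℕ) (cl : ℕ → I → κ) : Prop where
  le : ∀ j ∈ S, j ≤ J
  card : (Fintype.card I : ℝ) = n * 4 ^ J
  fib : ∀ j ∈ S, ∀ x, ((univ.filter (fun y => cl j x = cl j y)).card : ℝ) = 4 ^ J / 4 ^ j
  nest : ∀ i ∈ S, ∀ j ∈ S, i ≤ j → ∀ x y, cl j x = cl j y → cl i x = cl i y

/-- nonnegative class functions -/
structure Tent (S : Finset ℕ) (cl : ℕ → I → κ) (h : ℕ → I → ℝ) : Prop where
  nonneg : ∀ j ∈ S, ∀ x, 0 ≤ h j x
  cls : ∀ j ∈ S, ∀ x y, cl j x = cl j y → h j x = h j y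

/-- the field matrix: one Gaussian variable for every pair `(j, y)` -/
noncomputable def Lm (S : Finset ℕ) (J : ℕ) (cl : ℕ → I → κ) (h : ℕ → I → ℝ) (τ : ℝ) :
    Matrix I (S × I) ℝ :=
  fun x p => Real.sqrt (τ * h p.1 p.2) * (if cl p.1 x = cl p.1 p.2 then 1 else 0) *
    (4 ^ (p.1 : ℕ) / 4 ^ J)

/-- the covariance at one scale -/
noncomputable def Rj (J : ℕ) (cl : ℕ → I → κ) (h : ℕ → I → ℝ) (j : ℕ) : Matrix I I ℝ :=
  fun x y => if cl j x = cl j y then h j x * (4 ^ j / 4 ^ J) else 0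

section basic

variable {S : Finset ℕ} {J n : ℕ} {cl : ℕ → I → κ} {h : ℕ → I → ℝ} {τ : ℝ}

theorem sum_col (hN : Nested S J n cl) (hh : Tent S cl h) (hτ : 0 ≤ τ) {j : ℕ} (hj : j ∈ S)
    (x y : I) :
    ∑ z, (Real.sqrt (τ * h j z) * (if cl j x = cl j z then 1 else 0) * (4 ^ j / 4 ^ J)) *
      (Real.sqrt (τ * h j z) * (if cl j y = cl j z then 1 else 0) * (4 ^ j / 4 ^ J)) =
      τ * Rj J cl h j x y := by
  have h4J : (0 : ℝ) < 4 ^ J := by positivity
  have h4j : (0 : ℝ) < 4 ^ j := by positivity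
  unfold Rj
  split_ifs with hxy
  · have e : ∀ z, (Real.sqrt (τ * h j z) * (if cl j x = cl j z then 1 else 0) *
        (4 ^ j / 4 ^ J)) * (Real.sqrt (τ * h j z) * (if cl j y = cl j z then 1 else 0) *
        (4 ^ j / 4 ^ J)) = if cl j x = cl j z then τ * h j x * (4 ^ j / 4 ^ J) ^ 2 else 0 := by
      intro z
      by_cases hz : cl j x = cl j z
      · rw [if_pos hz, if_pos hz, if_pos (hxy ▸ hz), hh.cls j hj x z hz]
        have h1 := Real.mul_self_sqrt (mul_nonneg hτ (hh.nonneg j hj z))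
        calc _ = (Real.sqrt (τ * h j z) * Real.sqrt (τ * h j z)) * (4 ^ j / 4 ^ J) ^ 2 := by ring
          _ = _ := by rw [h1]
      · rw [if_neg hz, if_neg hz]; ring
    rw [sum_congr rfl (fun z _ => e z), ← sum_filter, sum_const, nsmul_eq_mul, hN.fib j hj x]
    field_simp
  · rw [mul_zero]
    refine sum_eq_zero (fun z _ => ?_)
    by_cases hz : cl j x = cl j z
    · rw [if_pos hz, if_neg (fun h2 => hxy (hz.trans h2.symm))]; ring
    · rw [if_neg hz]; ring

theorem LLt (hN : Nested S J n cl) (hh : Tent S cl h) (hτ : 0 ≤ τ) :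
    Lm S J cl h τ * (Lm S J cl h τ)ᵀ = ∑ j ∈ S, τ • Rj J cl h j := by
  ext x y
  rw [Matrix.mul_apply, Matrix.sum_apply]
  simp only [Matrix.transpose_apply, Matrix.smul_apply, smul_eq_mul]
  rw [Fintype.sum_prod_type, ← sum_coe_sort S (fun j => τ * Rj J cl h j x y)]
  refine sum_congr rfl (fun j _ => ?_)
  exact sum_col hN hh hτ j.2 x y

theorem Rj_posSemidef (hN : Nested S J n cl) (hh : Tent S cl h) {j : ℕ} (hj : j ∈ S) :
    (Rj J cl h j).PosSemidef := by
  set B : Matrix I I ℝ := fun x z => Real.sqrt (1 * h j z) *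
    (if cl j x = cl j z then 1 else 0) * (4 ^ j / 4 ^ J) with hB
  have h1 : Rj J cl h j = B * Bᵀ := by
    ext x y
    rw [Matrix.mul_apply]
    have := sum_col hN hh zero_le_one hj x y
    rw [one_mul] at this
    rw [← this]
    rfl
  rw [h1]
  have := Matrix.posSemidef_self_mul_conjTranspose B
  rwa [conjTranspose_eq_transpose_of_trivial] at this

end basic

section hs

variable {S : Finset ℕ} {J n : ℕ} {cl : ℕ → I → κ}

/-- the decay between scales -/
noncomputable def gg (i j : ℕ) : ℝ := if i ≤ j then 2 ^ i / 2 ^ j else 2 ^ j / 2 ^ i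

theorem sum_gg (i J : ℕ) (S : Finset ℕ) (hS : ∀ j ∈ S, j ≤ J) : ∑ j ∈ S, gg i j ≤ 3 := by
  have h0 : ∀ j, 0 ≤ gg i j := by intro j; unfold gg; split_ifs <;> positivity
  have h1 : ∑ j ∈ S, gg i j ≤ ∑ j ∈ range (i + J + 1), gg i j := by
    refine sum_le_sum_of_subset_of_nonneg (fun j hj => ?_) (fun j _ _ => h0 j)
    rw [mem_range]
    have := hS j hj
    omega
  refine h1.trans ?_
  rw [show i + J + 1 = i + (J + 1) by ring, sum_range_add]
  have h2 : ∑ x ∈ range i, gg i x ≤ 1 := by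
    have e : ∀ x ∈ range i, gg i x = (2 : ℝ) ^ x * (1 / 2 ^ i) := by
      intro x hx
      rw [mem_range] at hx
      unfold gg
      rw [if_neg (by omega)]; ring
    rw [sum_congr rfl e, ← sum_mul, geom_sum_eq (by norm_num)]
    rw [mul_one_div, div_le_one (by positivity)]
    norm_num
  have h3 : ∑ x ∈ range (J + 1), gg i (i + x) ≤ 2 := by
    have e : ∀ x ∈ range (J + 1), gg i (i + x) = (1 / (2 : ℝ)) ^ x := by
      intro x _
      unfold gg
      rw [if_pos (by omega), pow_add, one_div, inv_pow]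
      field_simp
    rw [sum_congr rfl e]
    exact sum_geometric_two_le _
  linarith

theorem pair_bound (hN : Nested S J n cl) {δ : ℕ → I → ℝ} {ρ : ℝ} (hρ : 0 ≤ ρ)
    (hδ : ∀ j ∈ S, ∀ x, |δ j x| ≤ ρ / 2 ^ j) {i j : ℕ} (hi : i ∈ S) (hj : j ∈ S) :
    ∑ x, ∑ y, (if cl i x = cl i y then δ i x * (4 ^ i / 4 ^ J) else 0) *
      (if cl j x = cl j y then δ j x * (4 ^ j / 4 ^ J) else 0) ≤ n * ρ ^ 2 * gg i j := by
  have h4J : (0 : ℝ) < 4 ^ J := by positivity
  wlog hij : i ≤ j generalizing i j with H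
  · have h1 := H hj hi (by omega)
    have h2 : gg i j = gg j i := by
      unfold gg
      rw [if_neg hij, if_pos (by omega)]
    rw [h2]
    refine le_trans (le_of_eq ?_) h1
    refine sum_congr rfl (fun x _ => sum_congr rfl (fun y _ => ?_))
    ring
  have e : ∀ x y, (if cl i x = cl i y then δ i x * (4 ^ i / 4 ^ J) else 0) *
      (if cl j x = cl j y then δ j x * (4 ^ j / 4 ^ J) else 0) ≤
      if cl j x = cl j y then (ρ / 2 ^ i) * (ρ / 2 ^ j) * ((4 ^ i / 4 ^ J) * (4 ^ j / 4 ^ J))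
        else 0 := by
    intro x y
    by_cases hxy : cl j x = cl j y
    · rw [if_pos hxy, if_pos hxy, if_pos (hN.nest i hi j hj hij x y hxy)]
      have h1 : δ i x * δ j x ≤ (ρ / 2 ^ i) * (ρ / 2 ^ j) := by
        calc δ i x * δ j x ≤ |δ i x * δ j x| := le_abs_self _
          _ = |δ i x| * |δ j x| := abs_mul _ _
          _ ≤ _ := mul_le_mul (hδ i hi x) (hδ j hj x) (abs_nonneg _) (by positivity)
      calc _ = (δ i x * δ j x) * ((4 ^ i / 4 ^ J) * (4 ^ j / 4 ^ J)) := by ring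
        _ ≤ _ := mul_le_mul_of_nonneg_right h1 (by positivity)
    · rw [if_neg hxy, if_neg hxy, mul_zero]
  calc _ ≤ ∑ x : I, ∑ y : I, (if cl j x = cl j y then (ρ / 2 ^ i) * (ρ / 2 ^ j) *
        ((4 ^ i / 4 ^ J) * (4 ^ j / 4 ^ J)) else 0) :=
        sum_le_sum (fun x _ => sum_le_sum (fun y _ => e x y))
    _ = ∑ x : I, (4 ^ J / 4 ^ j) * ((ρ / 2 ^ i) * (ρ / 2 ^ j) *
        ((4 ^ i / 4 ^ J) * (4 ^ j / 4 ^ J))) := by
        refine sum_congr rfl (fun x _ => ?_)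
        rw [← sum_filter, sum_const, nsmul_eq_mul, hN.fib j hj x]
    _ = n * 4 ^ J * ((4 ^ J / 4 ^ j) * ((ρ / 2 ^ i) * (ρ / 2 ^ j) *
        ((4 ^ i / 4 ^ J) * (4 ^ j / 4 ^ J)))) := by
        rw [sum_const, nsmul_eq_mul, card_univ, hN.card]
    _ = n * ρ ^ 2 * gg i j := by
        unfold gg
        rw [if_pos hij]
        have e1 : (4 : ℝ) ^ i = 2 ^ i * 2 ^ i := by rw [← mul_pow]; norm_num
        rw [e1]
        field_simp

/-- **Hilbert–Schmidt bound** -/
theorem hs_bound (hN : Nested S J n cl) {δ : ℕ → I → ℝ} {ρ τ : ℝ} (hρ : 0 ≤ ρ)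
    (hδ : ∀ j ∈ S, ∀ x, |δ j x| ≤ ρ / 2 ^ j) :
    ∑ x, ∑ y, (∑ j ∈ S, τ * (if cl j x = cl j y then δ j x * (4 ^ j / 4 ^ J) else 0)) ^ 2 ≤
      3 * n * ρ ^ 2 * τ ^ 2 * S.card := by
  have e : ∀ x y, (∑ j ∈ S, τ * (if cl j x = cl j y then δ j x * (4 ^ j / 4 ^ J) else 0)) ^ 2 =
      τ ^ 2 * ∑ i ∈ S, ∑ j ∈ S, (if cl i x = cl i y then δ i x * (4 ^ i / 4 ^ J) else 0) *
      (if cl j x = cl j y then δ j x * (4 ^ j / 4 ^ J) else 0) := by
    intro x y
    rw [← mul_sum, mul_pow, sq (∑ j ∈ S, _), sum_mul_sum]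
  have e0 : ∑ x, ∑ y, (∑ j ∈ S, τ * (if cl j x = cl j y then δ j x * (4 ^ j / 4 ^ J) else 0)) ^ 2 =
      τ ^ 2 * ∑ x, ∑ y, ∑ i ∈ S, ∑ j ∈ S,
        (if cl i x = cl i y then δ i x * (4 ^ i / 4 ^ J) else 0) *
        (if cl j x = cl j y then δ j x * (4 ^ j / 4 ^ J) else 0) := by
    rw [mul_sum]
    refine sum_congr rfl (fun x _ => ?_)
    rw [mul_sum]
    exact sum_congr rfl (fun y _ => e x y)
  rw [e0]
  have e2 : ∑ x, ∑ y, ∑ i ∈ S, ∑ j ∈ S, (if cl i x = cl i y then δ i x * (4 ^ i / 4 ^ J) else 0) *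
      (if cl j x = cl j y then δ j x * (4 ^ j / 4 ^ J) else 0) =
      ∑ i ∈ S, ∑ j ∈ S, ∑ x, ∑ y, (if cl i x = cl i y then δ i x * (4 ^ i / 4 ^ J) else 0) *
      (if cl j x = cl j y then δ j x * (4 ^ j / 4 ^ J) else 0) := by
    calc _ = ∑ x, ∑ i ∈ S, ∑ y, ∑ j ∈ S, (if cl i x = cl i y then δ i x * (4 ^ i / 4 ^ J) else 0) *
          (if cl j x = cl j y then δ j x * (4 ^ j / 4 ^ J) else 0) :=
          sum_congr rfl (fun x _ => sum_comm)
      _ = ∑ i ∈ S, ∑ x, ∑ y, ∑ j ∈ S, (if cl i x = cl i y then δ i x * (4 ^ i / 4 ^ J) else 0) *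
          (if cl j x = cl j y then δ j x * (4 ^ j / 4 ^ J) else 0) := sum_comm
      _ = ∑ i ∈ S, ∑ x, ∑ j ∈ S, ∑ y, (if cl i x = cl i y then δ i x * (4 ^ i / 4 ^ J) else 0) *
          (if cl j x = cl j y then δ j x * (4 ^ j / 4 ^ J) else 0) :=
          sum_congr rfl (fun i _ => sum_congr rfl (fun x _ => sum_comm))
      _ = _ := sum_congr rfl (fun i _ => sum_comm)
  rw [e2]
  have e3 : ∑ i ∈ S, ∑ j ∈ S, ∑ x, ∑ y, (if cl i x = cl i y then δ i x * (4 ^ i / 4 ^ J) else 0) *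
      (if cl j x = cl j y then δ j x * (4 ^ j / 4 ^ J) else 0) ≤ S.card * (n * ρ ^ 2 * 3) := by
    calc _ ≤ ∑ i ∈ S, ∑ j ∈ S, n * ρ ^ 2 * gg i j :=
          sum_le_sum (fun i hi => sum_le_sum (fun j hj => pair_bound hN hρ hδ hi hj))
      _ = ∑ i ∈ S, n * ρ ^ 2 * ∑ j ∈ S, gg i j := by
          refine sum_congr rfl (fun i _ => ?_)
          rw [mul_sum]
      _ ≤ ∑ i ∈ S, n * ρ ^ 2 * 3 := by
          refine sum_le_sum (fun i _ => ?_)
          exact mul_le_mul_of_nonneg_left (sum_gg i J S hN.le) (by positivity)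
      _ = _ := by rw [sum_const, nsmul_eq_mul]
  calc _ ≤ τ ^ 2 * (S.card * (n * ρ ^ 2 * 3)) := mul_le_mul_of_nonneg_left e3 (by positivity)
    _ = _ := by ring

end hs

section perm

variable {S : Finset ℕ} {J n : ℕ} {cl : ℕ → I → κ} {h : ℕ → I → ℝ} {τ : ℝ}

/-- the permutation matrix: `(Pm σ v) x = v (σ⁻¹ x)` -/
def Pm (σ : Equiv.Perm I) : Matrix I I ℝ := fun x y => if σ⁻¹ x = y then 1 else 0

omit [DecidableEq κ] in
theorem Pm_mulVec (σ : Equiv.Perm I) (v : I → ℝ) (x : I) : (Pm σ).mulVec v x = v (σ⁻¹ x) := by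
  rw [Matrix.mulVec, dotProduct]
  unfold Pm
  simp

theorem Pm_conj (σ : Equiv.Perm I) (Q : Matrix I I ℝ) (x y : I) :
    (Pm σ * Q * (Pm σ)ᵀ) x y = Q (σ⁻¹ x) (σ⁻¹ y) := by
  rw [Matrix.mul_apply]
  have e : ∀ z, (Pm σ * Q) x z = Q (σ⁻¹ x) z := by
    intro z
    rw [Matrix.mul_apply]
    unfold Pm
    simp
  simp only [e, Matrix.transpose_apply]
  unfold Pm
  simp

theorem Pm_orth (σ : Equiv.Perm I) : Pm σ * (Pm σ)ᵀ = 1 := by
  ext x y
  have := Pm_conj σ 1 x y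
  rw [mul_one] at this
  rw [this, Matrix.one_apply, Matrix.one_apply]
  simp

/-- compatibility of a permutation of the classes with the tent functions -/
structure Comp (S : Finset ℕ) (cl : ℕ → I → κ) (h : ℕ → I → ℝ) (ρ : ℝ)
    (σ : Equiv.Perm I) : Prop where
  iff : ∀ j ∈ S, ∀ x y, h j x ≠ 0 → (cl j x = cl j y ↔ cl j (σ x) = cl j (σ y))
  lip : ∀ j ∈ S, ∀ x, |h j (σ⁻¹ x) - h j x| ≤ ρ / 2 ^ j
  cls : ∀ j ∈ S, ∀ x y, cl j x = cl j y → h j (σ⁻¹ x) = h j (σ⁻¹ y)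

/-- **the Hilbert–Schmidt defect** -/
theorem hs_perm (hN : Nested S J n cl) (hh : Tent S cl h) (hτ : 0 ≤ τ) {ρ : ℝ} (hρ : 0 ≤ ρ)
    {σ : Equiv.Perm I} (hσ : Comp S cl h ρ σ) :
    ∑ x, ∑ y, (Pm σ * (Lm S J cl h τ * (Lm S J cl h τ)ᵀ) * (Pm σ)ᵀ -
      Lm S J cl h τ * (Lm S J cl h τ)ᵀ) x y ^ 2 ≤ 3 * n * ρ ^ 2 * τ ^ 2 * S.card := by
  refine le_trans (le_of_eq ?_) (hs_bound hN (δ := fun j x => h j (σ⁻¹ x) - h j x) hρ hσ.lip)
  refine sum_congr rfl (fun x _ => sum_congr rfl (fun y _ => ?_))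
  congr 1
  rw [Matrix.sub_apply, Pm_conj, LLt hN hh hτ, Matrix.sum_apply, Matrix.sum_apply,
    ← sum_sub_distrib]
  refine sum_congr rfl (fun j hj => ?_)
  rw [Matrix.smul_apply, Matrix.smul_apply, smul_eq_mul, smul_eq_mul, ← mul_sub]
  congr 1
  unfold Rj
  by_cases h0 : h j (σ⁻¹ x) = 0
  · by_cases hxy : cl j x = cl j y
    · rw [if_pos hxy, if_pos hxy, h0]
      split_ifs <;> ring
    · rw [if_neg hxy, if_neg hxy]
      rw [h0]
      split_ifs <;> ring
  · have h1 := hσ.iff j hj (σ⁻¹ x) (σ⁻¹ y) h0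
    have h2 : ∀ z, σ (σ⁻¹ z) = z := fun z => σ.apply_symm_apply z
    rw [h2, h2] at h1
    by_cases hxy : cl j x = cl j y
    · rw [if_pos hxy, if_pos hxy, if_pos (h1.2 hxy)]; ring
    · rw [if_neg hxy, if_neg hxy, if_neg (fun h2 => hxy (h1.1 h2))]; ring

end perm

section beta

variable {S : Finset ℕ} {J n : ℕ} {cl : ℕ → I → κ} {h : ℕ → I → ℝ} {τ : ℝ}

theorem one_scale (hN : Nested S J n cl) (hh : Tent S cl h) {j : ℕ} (hj : j ∈ S) {c : ℝ}
    (hc : 0 ≤ c) {b : I → ℝ} (hb : ∀ x y, cl j x = cl j y → h j x ≠ 0 → b x = b y) :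
    b ⬝ᵥ (1 + c • Rj J cl h j)⁻¹.mulVec b = ∑ x, b x ^ 2 / (1 + c * h j x) := by
  have h4J : (0 : ℝ) < 4 ^ J := by positivity
  have h4j : (0 : ℝ) < 4 ^ j := by positivity
  have hpos : ∀ x, 0 < 1 + c * h j x := fun x => by
    have := mul_nonneg hc (hh.nonneg j hj x)
    linarith
  have hA : (1 + c • Rj J cl h j).PosDef :=
    Matrix.PosDef.one.add_posSemidef ((Rj_posSemidef hN hh hj).smul hc)
  rw [H34.inv_form_eq _ hA b (fun x => b x / (1 + c * h j x))]
  · rw [dotProduct]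
    refine sum_congr rfl (fun x _ => ?_)
    rw [sq, mul_div_assoc]
  · funext x
    rw [Matrix.add_mulVec, Matrix.one_mulVec, Pi.add_apply, Matrix.smul_mulVec, Pi.smul_apply,
      smul_eq_mul]
    have e : (Rj J cl h j).mulVec (fun x => b x / (1 + c * h j x)) x =
        h j x * (b x / (1 + c * h j x)) := by
      rw [Matrix.mulVec, dotProduct]
      unfold Rj
      have e1 : ∀ y, (if cl j x = cl j y then h j x * (4 ^ j / 4 ^ J) else 0) *
          (b y / (1 + c * h j y)) = if cl j x = cl j y then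
            h j x * (4 ^ j / 4 ^ J) * (b x / (1 + c * h j x)) else 0 := by
        intro y
        by_cases hxy : cl j x = cl j y
        · rw [if_pos hxy, if_pos hxy, ← hh.cls j hj x y hxy]
          by_cases h0 : h j x = 0
          · rw [h0]; ring
          · rw [hb x y hxy h0]
        · rw [if_neg hxy, if_neg hxy, zero_mul]
      rw [sum_congr rfl (fun y _ => e1 y), ← sum_filter, sum_const, nsmul_eq_mul, hN.fib j hj x]
      field_simp
    rw [e]
    have := (hpos x).ne'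
    field_simp

/-- **the displacement term**: `h j x = w x` except for a proportion `η` of the `x` -/
theorem beta_bound (hN : Nested S J n cl) (hh : Tent S cl h) (hτ : 0 < τ) (hS : 0 < S.card)
    {b w : I → ℝ} {β η W : ℝ} (hβ : 0 ≤ β) (hη0 : 0 ≤ η)
    (hb : ∀ j ∈ S, ∀ x y, cl j x = cl j y → h j x ≠ 0 → b x = b y)
    (hb2 : ∀ x, b x ^ 2 ≤ β * w x / 4 ^ J) (hw0 : ∀ x, 0 ≤ w x) (hwW : ∀ x, w x ≤ W)
    (hη : ∀ j ∈ S, ((univ.filter (fun x => h j x ≠ w x)).card : ℝ) ≤ η * (n * 4 ^ J)) :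
    b ⬝ᵥ (1 + Lm S J cl h τ * (Lm S J cl h τ)ᵀ)⁻¹.mulVec b ≤
      n * β * (W * η + 1 / (S.card * τ)) := by
  have h4J : (0 : ℝ) < 4 ^ J := by positivity
  set N : ℝ := ((S.card : ℕ) : ℝ) with hNdef
  have hN0 : 0 < N := by rw [hNdef]; exact_mod_cast hS
  have hc : 0 < N * τ := by positivity
  have e : Lm S J cl h τ * (Lm S J cl h τ)ᵀ = ∑ j ∈ S, (1 / N) • ((N * τ) • Rj J cl h j) := by
    rw [LLt hN hh hτ.le]
    refine sum_congr rfl (fun j _ => ?_)
    rw [smul_smul]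
    congr 1
    field_simp
  rw [e]
  refine (H34.inv_convex S (fun _ => 1 / N) (fun _ _ => by positivity) (by
    rw [sum_const, nsmul_eq_mul, ← hNdef]; field_simp) (fun j => (N * τ) • Rj J cl h j)
    (fun j hj => (Rj_posSemidef hN hh hj).smul hc.le) b).trans ?_
  have key : ∀ j ∈ S, b ⬝ᵥ (1 + (N * τ) • Rj J cl h j)⁻¹.mulVec b ≤
      n * β * (W * η + 1 / (N * τ)) := by
    intro j hj
    rw [one_scale hN hh hj hc.le (hb j hj)]
    have h1 : ∀ x, b x ^ 2 / (1 + N * τ * h j x) ≤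
        (if h j x ≠ w x then β * W / 4 ^ J else 0) + β / 4 ^ J * (1 / (N * τ)) := by
      intro x
      have hβJ : 0 ≤ β / 4 ^ J := by positivity
      have h2 : 1 ≤ 1 + N * τ * h j x := by
        have := mul_nonneg hc.le (hh.nonneg j hj x)
        linarith
      have h5 : 0 ≤ β / 4 ^ J * (1 / (N * τ)) := by positivity
      split_ifs with hx
      · have h3 : b x ^ 2 / (1 + N * τ * h j x) ≤ β * W / 4 ^ J := by
          refine (div_le_self (sq_nonneg _) h2).trans ((hb2 x).trans ?_)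
          gcongr
          exact hwW x
        linarith
      · rw [not_not] at hx
        rw [zero_add, div_le_iff₀ (by linarith)]
        refine (hb2 x).trans ?_
        have h6 : β / 4 ^ J * (1 / (N * τ)) * (1 + N * τ * h j x) =
            β / 4 ^ J * (1 / (N * τ)) + β * w x / 4 ^ J := by
          rw [hx]; field_simp
        rw [h6]
        linarith
    calc ∑ x, b x ^ 2 / (1 + N * τ * h j x)
        ≤ ∑ x, ((if h j x ≠ w x then β * W / 4 ^ J else 0) + β / 4 ^ J * (1 / (N * τ))) :=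
          sum_le_sum (fun x _ => h1 x)
      _ = (univ.filter (fun x => h j x ≠ w x)).card * (β * W / 4 ^ J) +
          (n * 4 ^ J) * (β / 4 ^ J * (1 / (N * τ))) := by
          rw [sum_add_distrib, ← sum_filter, sum_const, sum_const, nsmul_eq_mul, nsmul_eq_mul,
            card_univ, hN.card]
      _ ≤ (η * (n * 4 ^ J)) * (β * W / 4 ^ J) + (n * 4 ^ J) * (β / 4 ^ J * (1 / (N * τ))) := by
          by_cases hI : Nonempty I
          · obtain ⟨x0⟩ := hI
            have hW0 : 0 ≤ W := (hw0 x0).trans (hwW x0)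
            gcongr
            exact hη j hj
          · rw [not_nonempty_iff] at hI
            have e0 : (n : ℝ) * 4 ^ J = 0 := by
              rw [← hN.card, Fintype.card_eq_zero]; simp
            have e1 : ((univ.filter (fun x => h j x ≠ w x)).card : ℝ) = 0 := by
              rw [Finset.univ_eq_empty]; simp
            rw [e0, e1]; simp
      _ = n * β * (W * η + 1 / (N * τ)) := by field_simp
  calc _ ≤ ∑ j ∈ S, 1 / N * (n * β * (W * η + 1 / (N * τ))) :=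
        sum_le_sum (fun j hj => mul_le_mul_of_nonneg_left (key j hj) (by positivity))
    _ = n * β * (W * η + 1 / (N * τ)) := by
        rw [sum_const, nsmul_eq_mul, ← hNdef]; field_simp

end beta

end Vale.Agent.P196.H211
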