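import Vale.Agent.P196.H211.Scale
import Mathlib.Data.ZMod.Basic
import Mathlib.Data.Nat.Cast.Order.Field

/-!
# P196, block AM6 (helper211): the torus of classes modulo `2^(J+1)` and the tent functions
-/

open Finset

namespace Vale.Agent.P196.H211

/-- classes modulo `2^(J+1)` -/
abbrev Tor (J : ℕ) := ZMod (2 ^ (J + 1)) × ZMod (2 ^ (J + 1))

/-- fields on the classes, one plane vector for every floor -/
abbrev Fld (J : ℕ) (ι : Type*) := Tor J → ι → Fin 2 → ℝ

/-- `x` is farther than `R` from the multiples of `2^j` -/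
def Far1 (R j : ℕ) {J : ℕ} (x : ZMod (2 ^ (J + 1))) : Prop :=
  R < x.val % 2 ^ j ∧ x.val % 2 ^ j + R < 2 ^ j

/-- `u` is farther than `R` from the lines of level at least `j` -/
def Far (R j : ℕ) {J : ℕ} (u : Tor J) : Prop := Far1 R j u.1 ∧ Far1 R j u.2

/-- same class modulo `2^(j+1)` -/
def Same (j : ℕ) {J : ℕ} (u v : Tor J) : Prop :=
  u.1.val % 2 ^ (j + 1) = v.1.val % 2 ^ (j + 1) ∧ u.2.val % 2 ^ (j + 1) = v.2.val % 2 ^ (j + 1)

/-- the distance to the multiples of `2^j` -/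
def dd (j : ℕ) {J : ℕ} (x : ZMod (2 ^ (J + 1))) : ℕ := min (x.val % 2 ^ j) (2 ^ j - x.val % 2 ^ j)

theorem Far1.mono {R j k J : ℕ} (hjk : j ≤ k) {x : ZMod (2 ^ (J + 1))} (h : Far1 R j x) :
    Far1 R k x := by
  obtain ⟨h1, h2⟩ := h
  have hd : x.val % 2 ^ k % 2 ^ j = x.val % 2 ^ j := Nat.mod_mod_of_dvd _ (pow_dvd_pow 2 hjk)
  have hk : x.val % 2 ^ k < 2 ^ k := Nat.mod_lt _ (by positivity)
  obtain ⟨c, hc⟩ := pow_dvd_pow 2 hjk
  set r := x.val % 2 ^ k with hr
  have h3 := Nat.div_add_mod r (2 ^ j)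
  rw [hd] at h3
  have h4 : r / 2 ^ j < c := by
    rw [Nat.div_lt_iff_lt_mul (by positivity)]
    rw [hc] at hk
    rw [mul_comm]; exact hk
  have h5 : 2 ^ j * (r / 2 ^ j) + 2 ^ j ≤ 2 ^ k := by
    rw [hc]
    calc 2 ^ j * (r / 2 ^ j) + 2 ^ j = 2 ^ j * (r / 2 ^ j + 1) := by ring
      _ ≤ 2 ^ j * c := Nat.mul_le_mul_left _ h4
  constructor
  · omega
  · show r + R < 2 ^ k
    omega

theorem Far.mono {R j k J : ℕ} (hjk : j ≤ k) {u : Tor J} (h : Far R j u) : Far R k u :=
  ⟨h.1.mono hjk, h.2.mono hjk⟩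

theorem far_of_dd {R j J : ℕ} {x : ZMod (2 ^ (J + 1))} (h : R < dd j x) : Far1 R j x := by
  unfold dd at h
  have h2 : x.val % 2 ^ j < 2 ^ j := Nat.mod_lt _ (by positivity)
  constructor
  · exact (lt_min_iff.1 h).1
  · have := (lt_min_iff.1 h).2
    omega

theorem Same.mod {j J : ℕ} {u v : Tor J} (h : Same j u v) {i : ℕ} (hi : i ≤ j + 1) :
    u.1.val % 2 ^ i = v.1.val % 2 ^ i ∧ u.2.val % 2 ^ i = v.2.val % 2 ^ i := by
  constructor
  · rw [← Nat.mod_mod_of_dvd u.1.val (pow_dvd_pow 2 hi), h.1,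
      Nat.mod_mod_of_dvd _ (pow_dvd_pow 2 hi)]
  · rw [← Nat.mod_mod_of_dvd u.2.val (pow_dvd_pow 2 hi), h.2,
      Nat.mod_mod_of_dvd _ (pow_dvd_pow 2 hi)]

theorem Same.far {j J R : ℕ} {u v : Tor J} (h : Same j u v) : Far R j u ↔ Far R j v := by
  have h1 := h.mod (i := j) (by omega)
  unfold Far Far1
  rw [h1.1, h1.2]

theorem val_add_one_mod {J j : ℕ} (hj : j ≤ J + 1) (y : ZMod (2 ^ (J + 1))) :
    (y + 1).val % 2 ^ j = (y.val % 2 ^ j + 1) % 2 ^ j := by
  rw [ZMod.val_add, Nat.mod_mod_of_dvd _ (pow_dvd_pow 2 hj), ZMod.val_one_eq_one_mod, Nat.add_mod,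
    Nat.mod_mod_of_dvd _ (pow_dvd_pow 2 hj)]
  simp

/-- shifting by one preserves classes -/
theorem mod_add_one_iff {J j : ℕ} (hj : j ≤ J + 1) (x y : ZMod (2 ^ (J + 1))) :
    (x + 1).val % 2 ^ j = (y + 1).val % 2 ^ j ↔ x.val % 2 ^ j = y.val % 2 ^ j := by
  rw [val_add_one_mod hj, val_add_one_mod hj]
  constructor
  · intro h
    have h1 : x.val + 1 ≡ y.val + 1 [MOD 2 ^ j] := by
      unfold Nat.ModEq
      rw [Nat.add_mod, Nat.add_mod y.val]
      simpa using h
    exact Nat.ModEq.add_right_cancel' 1 h1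
  · intro h
    rw [h]

theorem dd_sub_one {J j : ℕ} (hj : j ≤ J + 1) (x : ZMod (2 ^ (J + 1))) :
    dd j (x - 1) ≤ dd j x + 1 ∧ dd j x ≤ dd j (x - 1) + 1 := by
  have h1 : x.val % 2 ^ j = ((x - 1).val % 2 ^ j + 1) % 2 ^ j := by
    have := val_add_one_mod hj (x - 1)
    rwa [sub_add_cancel] at this
  unfold dd
  have hm : 0 < 2 ^ j := by positivity
  set m := 2 ^ j
  set r := (x - 1).val % m with hr
  have hrm : r < m := Nat.mod_lt _ hm
  rw [h1]
  rcases Nat.lt_or_ge (r + 1) m with h2 | h2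
  · rw [Nat.mod_eq_of_lt h2]
    omega
  · have h3 : r + 1 = m := by omega
    rw [h3, Nat.mod_self]
    omega

/-- counting residues -/
theorem card_range_mod (m K : ℕ) (hm : 0 < m) (P : ℕ → Prop) [DecidablePred P] :
    ((range (m * K)).filter (fun x => P (x % m))).card = K * ((range m).filter P).card := by
  rw [← card_range K, ← card_product, card_range]
  refine card_nbij' (fun x => (x / m, x % m)) (fun p => p.2 + m * p.1) ?_ ?_ ?_ ?_
  · intro x hx
    simp only [coe_filter, mem_range, Set.mem_ofPred_eq] at hx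
    simp only [coe_product, Set.mem_prod, mem_coe, mem_filter, mem_range]
    refine ⟨?_, Nat.mod_lt _ hm, hx.2⟩
    exact Nat.div_lt_of_lt_mul hx.1
  · rintro ⟨k, r⟩ hp
    simp only [coe_product, Set.mem_prod, mem_coe, mem_filter, mem_range] at hp
    simp only [coe_filter, mem_range, Set.mem_ofPred_eq]
    obtain ⟨h1, h2, h3⟩ := hp
    constructor
    · calc r + m * k < m + m * k := by omega
        _ = m * (k + 1) := by ring
        _ ≤ m * K := Nat.mul_le_mul_left _ h1
    · rw [Nat.add_mul_mod_self_left, Nat.mod_eq_of_lt h2]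
      exact h3
  · intro x _
    exact Nat.mod_add_div x m
  · rintro ⟨k, r⟩ hp
    simp only [coe_product, Set.mem_prod, mem_coe, mem_filter, mem_range] at hp
    have h2 := hp.2.1
    ext
    · show (r + m * k) / m = k
      rw [Nat.add_mul_div_left _ _ hm, Nat.div_eq_of_lt h2, zero_add]
    · show (r + m * k) % m = r
      rw [Nat.add_mul_mod_self_left, Nat.mod_eq_of_lt h2]

theorem card_zmod_mod {J j : ℕ} (hj : j ≤ J + 1) (P : ℕ → Prop) [DecidablePred P] :
    (univ.filter (fun x : ZMod (2 ^ (J + 1)) => P (x.val % 2 ^ j))).card =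
      2 ^ (J + 1 - j) * ((range (2 ^ j)).filter P).card := by
  have h1 : 2 ^ (J + 1) = 2 ^ j * 2 ^ (J + 1 - j) := by
    rw [← pow_add]; congr 1; omega
  rw [← card_range_mod (2 ^ j) (2 ^ (J + 1 - j)) (by positivity) P, ← h1]
  refine card_nbij' (fun x => x.val) (fun k => (k : ZMod (2 ^ (J + 1)))) ?_ ?_ ?_ ?_
  · intro x hx
    simp only [coe_filter, mem_univ, true_and, Set.mem_ofPred_eq, mem_range] at hx ⊢
    exact ⟨ZMod.val_lt x, hx⟩
  · intro k hk
    simp only [coe_filter, mem_univ, true_and, Set.mem_ofPred_eq, mem_range] at hk ⊢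
    rw [ZMod.val_natCast, Nat.mod_eq_of_lt hk.1]
    exact hk.2
  · intro x _
    exact ZMod.natCast_zmod_val x
  · intro k hk
    simp only [coe_filter, Set.mem_ofPred_eq, mem_range] at hk
    show ((k : ℕ) : ZMod (2 ^ (J + 1))).val = k
    rw [ZMod.val_natCast, Nat.mod_eq_of_lt hk.1]

theorem card_near (m c : ℕ) :
    ((range m).filter (fun r => min r (m - r) < c)).card ≤ 2 * c := by
  have h1 : (range m).filter (fun r => min r (m - r) < c) ⊆
      (range c) ∪ (range c).image (fun k => m - k) := by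
    intro r hr
    rw [mem_filter, mem_range] at hr
    rw [mem_union, mem_range, mem_image]
    rcases min_lt_iff.1 hr.2 with h | h
    · exact Or.inl h
    · refine Or.inr ⟨m - r, by rw [mem_range]; exact h, ?_⟩
      omega
  calc _ ≤ _ := card_le_card h1
    _ ≤ (range c).card + ((range c).image (fun k => m - k)).card := card_union_le _ _
    _ ≤ c + c := by
        rw [card_range]
        have := card_image_le (s := range c) (f := fun k => m - k)
        rw [card_range] at this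
        omega
    _ = 2 * c := by ring

end Vale.Agent.P196.H211
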